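import Vale.Agent.P237.Petty.Cor.Band20.N41.Data
import Vale.Agent.P237.Petty.Cor.Band20.Good
import Vale.Agent.P237.Petty.Cor.Few.Mask

/-!
# P237: certificates, dimensions 41 to 49, values 119/50 to 6 over the dimension
-/

namespace Vale.Agent.P237.Petty.Cor.Band20.N41

def checks6 : Checks data piece6 := by
  constructor
  ·
    exact ⟨
      .leaf,
      Few.certify_of_quick (by decide +kernel)⟩
  ·
    exact ⟨
      .leaf,
      Few.certify_of_quick (by decide +kernel)⟩
  ·
    exact ⟨
      .leaf,
      Few.certify_of_quick (by decide +kernel)⟩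
  ·
    exact ⟨
      .leaf,
      Few.certify_of_quick (by decide +kernel)⟩
  ·
    exact ⟨
      .leaf,
      Few.certify_of_quick (by decide +kernel)⟩
  ·
    exact ⟨
      .leaf,
      Few.certify_of_quick (by decide +kernel)⟩
  · intro i
    cases i
    ·
      exact ⟨
        (.split 2 .leaf (.split 2 .leaf (.split 2 (.split 2 .leaf (.split 2 .leaf .leaf))
        .leaf))),
        Few.certify_of_quick (by decide +kernel)⟩
    ·
      exact ⟨
        (.split 2 .leaf (.split 2 .leaf (.split 2 (.split 2 .leaf (.split 2 (.split 2 .leaf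
        (.split 1 (.split 0 (.split 2 .leaf .leaf) (.split 2 .leaf .leaf)) (.split 2 .leaf
        .leaf))) .leaf)) .leaf))),
        Few.certify_of_quick (by decide +kernel)⟩
  · intro i
    cases i
    ·
      exact ⟨
        .leaf,
        Few.certify_of_quick (by decide +kernel)⟩
    ·
      exact ⟨
        .leaf,
        Few.certify_of_quick (by decide +kernel)⟩
  · intro h
    simp [piece6] at h
  ·
    exact ⟨
      .leaf,
      Few.certify_of_quick (by decide +kernel)⟩
  ·
    exact ⟨
      .leaf,
      Few.certify_of_quick (by decide +kernel)⟩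

def checks7 : Checks data piece7 := by
  constructor
  ·
    exact ⟨
      (.split 0 .leaf .leaf),
      Few.certify_of_quick (by decide +kernel)⟩
  ·
    exact ⟨
      .leaf,
      Few.certify_of_quick (by decide +kernel)⟩
  ·
    exact ⟨
      .leaf,
      Few.certify_of_quick (by decide +kernel)⟩
  ·
    exact ⟨
      .leaf,
      Few.certify_of_quick (by decide +kernel)⟩
  ·
    exact ⟨
      .leaf,
      Few.certify_of_quick (by decide +kernel)⟩
  ·
    exact ⟨
      .leaf,
      Few.certify_of_quick (by decide +kernel)⟩
  · intro i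
    cases i
    ·
      exact ⟨
        (.split 2 .leaf (.split 2 .leaf (.split 2 (.split 2 .leaf (.split 2 .leaf (.split 1
        (.split 0 .leaf (.split 1 (.split 2 .leaf .leaf) .leaf)) .leaf))) .leaf))),
        Few.certify_of_quick (by decide +kernel)⟩
    ·
      exact ⟨
        (.split 2 .leaf (.split 2 .leaf (.split 2 (.split 2 .leaf (.split 2 (.split 2 .leaf
        (.split 1 (.split 0 (.split 0 (.split 2 .leaf .leaf) (.split 2 .leaf .leaf)) (.split 2
        .leaf .leaf)) (.split 2 (.split 1 .leaf (.split 2 .leaf (.split 0 .leaf .leaf))) (.split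
        0 .leaf (.split 1 .leaf .leaf))))) (.split 2 (.split 1 (.split 0 (.split 0 .leaf (.split
        2 .leaf .leaf)) (.split 2 (.split 0 (.split 1 (.split 2 .leaf .leaf) .leaf) (.split 1
        .leaf .leaf)) (.split 1 (.split 0 .leaf (.split 1 (.split 0 .leaf (.split 2 .leaf .leaf))
        .leaf)) .leaf))) .leaf) .leaf))) .leaf))),
        Few.certify_of_quick (by decide +kernel)⟩
  · intro i
    cases i
    ·
      exact ⟨
        .leaf,
        Few.certify_of_quick (by decide +kernel)⟩
    ·
      exact ⟨
        .leaf,
        Few.certify_of_quick (by decide +kernel)⟩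
  · intro h
    simp [piece7] at h
  ·
    exact ⟨
      .leaf,
      Few.certify_of_quick (by decide +kernel)⟩
  ·
    exact ⟨
      .leaf,
      Few.certify_of_quick (by decide +kernel)⟩

def checks8 : Checks data piece8 := by
  constructor
  ·
    exact ⟨
      (.split 0 .leaf .leaf),
      Few.certify_of_quick (by decide +kernel)⟩
  ·
    exact ⟨
      (.split 0 .leaf .leaf),
      Few.certify_of_quick (by decide +kernel)⟩
  ·
    exact ⟨
      .leaf,
      Few.certify_of_quick (by decide +kernel)⟩
  ·
    exact ⟨
      .leaf,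
      Few.certify_of_quick (by decide +kernel)⟩
  ·
    exact ⟨
      .leaf,
      Few.certify_of_quick (by decide +kernel)⟩
  ·
    exact ⟨
      .leaf,
      Few.certify_of_quick (by decide +kernel)⟩
  · intro i
    cases i
    ·
      exact ⟨
        (.split 2 .leaf (.split 2 .leaf (.split 2 (.split 2 .leaf (.split 2 .leaf (.split 0
        (.split 1 .leaf (.split 2 .leaf .leaf)) .leaf))) (.split 2 (.split 0 .leaf (.split 1
        (.split 2 (.split 1 (.split 0 (.split 2 (.split 0 .leaf (.split 1 (.split 2 .leaf .leaf)
        .leaf)) .leaf) (.split 2 (.split 1 (.split 0 (.split 1 (.split 2 .leaf .leaf) .leaf)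
        .leaf) .leaf) .leaf)) .leaf) .leaf) .leaf)) .leaf)))),
        Few.certify_of_quick (by decide +kernel)⟩
    ·
      exact ⟨
        (.split 2 .leaf (.split 2 .leaf (.split 2 (.split 2 .leaf (.split 0 (.split 2 (.split 2
        .leaf (.split 0 (.split 2 .leaf (.split 0 (.split 0 (.split 1 .leaf .leaf) .leaf) .leaf))
        .leaf)) (.split 2 (.split 0 (.split 0 (.split 2 (.split 1 .leaf .leaf) .leaf) (.split 1
        (.split 2 .leaf .leaf) (.split 2 .leaf .leaf))) (.split 1 (.split 0 (.split 2 .leaf
        .leaf) (.split 2 .leaf (.split 1 .leaf (.split 1 .leaf (.split 2 .leaf .leaf))))) (.split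
        2 .leaf (.split 1 (.split 0 (.split 0 .leaf (.split 2 .leaf .leaf)) (.split 1 (.split 0
        (.split 2 .leaf .leaf) (.split 2 .leaf .leaf)) (.split 2 .leaf .leaf))) (.split 0 .leaf
        (.split 1 (.split 2 .leaf .leaf) .leaf)))))) (.split 0 .leaf (.split 2 (.split 1 .leaf
        .leaf) .leaf)))) (.split 2 .leaf (.split 1 (.split 0 (.split 0 (.split 2 .leaf .leaf)
        (.split 1 .leaf (.split 2 .leaf .leaf))) (.split 1 .leaf (.split 2 .leaf .leaf))) (.split
        1 (.split 2 (.split 0 (.split 2 .leaf (.split 0 (.split 1 .leaf (.split 0 (.split 2 .leaf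
        .leaf) .leaf)) .leaf)) .leaf) (.split 2 .leaf .leaf)) (.split 2 (.split 0 (.split 2 .leaf
        (.split 0 (.split 1 (.split 0 (.split 2 .leaf .leaf) .leaf) .leaf) .leaf)) .leaf)
        .leaf)))))) (.split 2 .leaf .leaf)))),
        Few.certify_of_quick (by decide +kernel)⟩
  · intro i
    cases i
    ·
      exact ⟨
        .leaf,
        Few.certify_of_quick (by decide +kernel)⟩
    ·
      exact ⟨
        .leaf,
        Few.certify_of_quick (by decide +kernel)⟩
  · intro h
    simp [piece8] at h
  ·
    exact ⟨
      .leaf,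
      Few.certify_of_quick (by decide +kernel)⟩
  ·
    exact ⟨
      .leaf,
      Few.certify_of_quick (by decide +kernel)⟩

end Vale.Agent.P237.Petty.Cor.Band20.N41
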